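import Vale.Agent.P347.Gauss

/-! TASK Misc: polynomial growth, Lipschitz functions, clipping, smoothing. -/

open MeasureTheory ProbabilityTheory

namespace Vale.Agent.P347

variable {d : ℕ}

section
variable {X : Type*} [NormedAddCommGroup X]

theorem PG.exists_nonneg {f : X → ℝ} (hf : PG f) :
    ∃ (C : ℝ) (p : ℕ), 0 ≤ C ∧ ∀ x, |f x| ≤ C * (1 + ‖x‖) ^ p := by
  obtain ⟨C, p, h⟩ := hf
  exact ⟨|C|, p, abs_nonneg C, fun x => (h x).trans
    (mul_le_mul_of_nonneg_right (le_abs_self C) (by positivity))⟩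

private theorem one_le_base (x : X) : 1 ≤ 1 + ‖x‖ := le_add_of_nonneg_right (norm_nonneg x)

theorem PG.const (c : ℝ) : PG fun _ : X => c := ⟨|c|, 0, fun _ => by simp⟩
theorem PG.add {f g : X → ℝ} (hf : PG f) (hg : PG g) : PG fun x => f x + g x := by
  obtain ⟨C, p, hC, h⟩ := hf.exists_nonneg
  obtain ⟨D, q, hD, k⟩ := hg.exists_nonneg
  refine ⟨C + D, p + q, fun x => (abs_add_le _ _).trans ?_⟩
  have a1 := mul_le_mul_of_nonneg_left
    (pow_le_pow_right₀ (one_le_base x) (Nat.le_add_right p q)) hC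
  have a2 := mul_le_mul_of_nonneg_left
    (pow_le_pow_right₀ (one_le_base x) (Nat.le_add_left q p)) hD
  linarith [h x, k x]
theorem PG.mul {f g : X → ℝ} (hf : PG f) (hg : PG g) : PG fun x => f x * g x := by
  obtain ⟨C, p, hC, h⟩ := hf.exists_nonneg
  obtain ⟨D, q, hD, k⟩ := hg.exists_nonneg
  refine ⟨C * D, p + q, fun x => ?_⟩
  rw [abs_mul]
  refine (mul_le_mul (h x) (k x) (abs_nonneg _) (by positivity)).trans (le_of_eq ?_)
  ring
theorem PG.neg {f : X → ℝ} (hf : PG f) : PG fun x => -f x := by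
  obtain ⟨C, p, h⟩ := hf
  exact ⟨C, p, fun x => by rw [abs_neg]; exact h x⟩
theorem PG.sub {f g : X → ℝ} (hf : PG f) (hg : PG g) : PG fun x => f x - g x := by
  simpa only [sub_eq_add_neg] using hf.add hg.neg
theorem PG.pow {f : X → ℝ} (hf : PG f) (n : ℕ) : PG fun x => f x ^ n := by
  induction n with
  | zero => simpa using PG.const 1
  | succ n ih => simpa only [pow_succ] using ih.mul hf
theorem PG.sum {ι : Type*} (s : Finset ι) {f : ι → X → ℝ} (hf : ∀ i ∈ s, PG (f i)) :
    PG fun x => ∑ i ∈ s, f i x := by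
  classical
  induction s using Finset.induction_on with
  | empty => simpa using PG.const 0
  | insert a s ha ih =>
    simp only [Finset.sum_insert ha]
    exact (hf a (Finset.mem_insert_self _ _)).add
      (ih fun i hi => hf i (Finset.mem_insert_of_mem hi))
theorem PG.norm : PG fun x : X => ‖x‖ := ⟨1, 1, fun x => by simp⟩
theorem PG.of_le {f g : X → ℝ} (hg : PG g) (h : ∀ x, |f x| ≤ |g x|) : PG f := by
  obtain ⟨C, p, k⟩ := hg
  exact ⟨C, p, fun x => (h x).trans (k x)⟩
/-- composition with a map of polynomial growth -/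
theorem PG.comp {Y : Type*} [NormedAddCommGroup Y] {f : Y → ℝ} {φ : X → Y} (hf : PG f)
    (hφ : PG fun x => ‖φ x‖) : PG fun x => f (φ x) := by
  obtain ⟨C, p, hC, h⟩ := hf.exists_nonneg
  refine PG.of_le ((PG.const C).mul (((PG.const 1).add hφ).pow p)) fun x => ?_
  exact (h _).trans (le_abs_self _)
theorem LipR.pg {L : ℝ} {ψ : X → ℝ} (h : LipR L ψ) : PG ψ := by
  refine PG.of_le ((PG.const |ψ 0|).add ((PG.const L).mul PG.norm)) fun x => ?_
  refine le_trans ?_ (le_abs_self _)
  have h1 := h x 0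
  rw [sub_zero] at h1
  have h2 := abs_sub_abs_le_abs_sub (ψ x) (ψ 0)
  linarith
theorem LipV.continuous {Y : Type*} [NormedAddCommGroup Y] {L : ℝ} {f : X → Y} (h : LipV L f) :
    Continuous f :=
  (LipschitzWith.of_dist_le' (K := L) fun x y => by
    rw [dist_eq_norm, dist_eq_norm]; exact h x y).continuous
theorem LipR.continuous {L : ℝ} {ψ : X → ℝ} (h : LipR L ψ) : Continuous ψ :=
  LipV.continuous (L := L) h
theorem LipV.pg {Y : Type*} [NormedAddCommGroup Y] {L : ℝ} {f : X → Y} (h : LipV L f) :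
    PG fun x => ‖f x‖ :=
  LipR.pg (L := L) fun x y => (abs_norm_sub_norm_le _ _).trans (h x y)
end

theorem norm_clip_le {r : ℝ} (hr : 0 ≤ r) (x : E d) : ‖clip r x‖ ≤ r := by
  unfold clip
  split_ifs with h
  · exact h
  · have : 0 < ‖x‖ := by linarith [not_le.1 h]
    rw [norm_smul, Real.norm_of_nonneg (by positivity), div_mul_cancel₀ _ this.ne']

private theorem clip_obtuse {r : ℝ} (hr : 0 ≤ r) (x z : E d) (hz : ‖z‖ ≤ r) :
    inner ℝ (x - clip r x) (z - clip r x) ≤ 0 := by
  unfold clip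
  split_ifs with h
  · simp
  · have hx : 0 < ‖x‖ := by linarith [not_le.1 h]
    have e : x - (r / ‖x‖) • x = (1 - r / ‖x‖) • x := by rw [sub_smul, one_smul]
    rw [e, real_inner_smul_left, inner_sub_right, real_inner_smul_right,
      real_inner_self_eq_norm_sq]
    refine mul_nonpos_of_nonneg_of_nonpos ?_ ?_
    · rw [sub_nonneg, div_le_one hx]
      exact (not_le.1 h).le
    · have h1 := real_inner_le_norm x z
      have h2 := mul_le_mul_of_nonneg_left hz hx.le
      have h3 : r / ‖x‖ * ‖x‖ ^ 2 = ‖x‖ * r := by field_simp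
      linarith

theorem clip_lip {r : ℝ} (hr : 0 ≤ r) : LipV 1 (clip r : E d → E d) := by
  intro x y
  have h1 := clip_obtuse hr x _ (norm_clip_le hr y)
  have h2 := clip_obtuse hr y _ (norm_clip_le hr x)
  generalize clip r x = p at h1 h2 ⊢
  generalize clip r y = q at h1 h2 ⊢
  have h3 : ‖p - q‖ ^ 2 ≤ inner ℝ (x - y) (p - q) := by
    rw [← real_inner_self_eq_norm_sq]
    simp only [inner_sub_left, inner_sub_right] at h1 h2 ⊢
    linarith [real_inner_comm p q]
  have h4 := real_inner_le_norm (x - y) (p - q)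
  rw [one_mul]
  by_contra h
  have h5 := not_le.1 h
  nlinarith [norm_nonneg (x - y)]

theorem norm_clip_sub {r : ℝ} (hr : 0 ≤ r) (x : E d) : ‖clip r x - x‖ = max (‖x‖ - r) 0 := by
  unfold clip
  split_ifs with h
  · rw [sub_self, norm_zero, max_eq_right (by linarith)]
  · have hr' := not_le.1 h
    have hx : 0 < ‖x‖ := by linarith
    have e : x - (r / ‖x‖) • x = (1 - r / ‖x‖) • x := by rw [sub_smul, one_smul]
    rw [norm_sub_rev, e, norm_smul, Real.norm_of_nonneg (by
      rw [sub_nonneg, div_le_one hx]; exact hr'.le), max_eq_left (by linarith)]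
    field_simp

private theorem max_le_sq {t r : ℝ} (hr : 0 < r) : max (t - r) 0 ≤ t ^ 2 / r := by
  refine max_le ?_ (by positivity)
  rw [le_div_iff₀ hr]
  nlinarith [sq_nonneg (t - r), sq_nonneg t, sq_nonneg r]

theorem norm_clip_sub_le {r : ℝ} (hr : 0 < r) (x : E d) : ‖clip r x - x‖ ≤ ‖x‖ ^ 2 / r := by
  rw [norm_clip_sub hr.le]
  exact max_le_sq hr

/-- clipping a Gaussian far in its tail -/
theorem integral_clip_gauss {r ρ : ℝ} (hρ : 0 < ρ) (c : E d) (hc : ‖c‖ ≤ r) (a : ℝ) :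
    ∫ ξ, ‖clip (r + ρ) (c + a • ξ) - (c + a • ξ)‖ ∂(gam d) ≤ a ^ 2 * d / ρ := by
  have hr : 0 ≤ r := (norm_nonneg c).trans hc
  have hi : Integrable (fun ξ : E d => a ^ 2 / ρ * ‖ξ‖ ^ 2) (gam d) :=
    ((PG.norm.pow 2).integrable_gam (by fun_prop)).const_mul _
  refine (integral_mono_of_nonneg (ae_of_all _ fun ξ => norm_nonneg _) hi
    (ae_of_all _ fun ξ => ?_)).trans (le_of_eq ?_)
  · dsimp only
    rw [norm_clip_sub (by linarith)]
    have h1 := norm_add_le c (a • ξ)
    have h2 : a ^ 2 / ρ * ‖ξ‖ ^ 2 = ‖a • ξ‖ ^ 2 / ρ := by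
      rw [norm_smul, mul_pow, Real.norm_eq_abs, sq_abs]
      ring
    rw [h2]
    exact (max_le_max (by linarith) le_rfl).trans (max_le_sq hρ)
  · rw [integral_const_mul, integral_norm_sq_gam]
    ring

open scoped Convolution in
/-- Lipschitz functions are uniform limits of `C¹` functions with the same Lipschitz constant
(convolve with a normed bump function). -/
theorem exists_smooth_lip {F : Type*} [NormedAddCommGroup F] [NormedSpace ℝ F]
    [FiniteDimensional ℝ F] {L : ℝ} (hL : 0 ≤ L) {ψ : F → ℝ} (hψ : LipR L ψ) {η : ℝ}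
    (hη : 0 < η) :
    ∃ φ : F → ℝ, ContDiff ℝ 1 φ ∧ LipR L φ ∧ (∀ x, ‖fderiv ℝ φ x‖ ≤ L) ∧
      ∀ x, |φ x - ψ x| ≤ η := by
  borelize F
  let μ : Measure F := Measure.addHaar
  have hr : 0 < η / (L + 1) := by positivity
  let b : ContDiffBump (0 : F) := ⟨η / (L + 1) / 2, η / (L + 1), by positivity, by linarith⟩
  have hc := hψ.continuous
  have hlip : LipR L (b.normed μ ⋆[ContinuousLinearMap.lsmul ℝ ℝ, μ] ψ) := by
    intro x y
    have hi : ∀ z : F, Integrable (fun t => b.normed μ t • ψ (z - t)) μ := fun z =>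
      (b.continuous_normed.smul (hc.comp (by fun_prop))).integrable_of_hasCompactSupport
        b.hasCompactSupport_normed.smul_right
    rw [convolution_lsmul, convolution_lsmul, ← integral_sub (hi x) (hi y)]
    have h1 := norm_integral_le_of_norm_le (μ := μ)
      (f := fun t => b.normed μ t • ψ (x - t) - b.normed μ t • ψ (y - t))
      (b.integrable_normed.mul_const (L * ‖x - y‖)) (ae_of_all _ fun t => by
        rw [← smul_sub, norm_smul, Real.norm_of_nonneg (b.nonneg_normed t), Real.norm_eq_abs]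
        refine mul_le_mul_of_nonneg_left ?_ (b.nonneg_normed t)
        have := hψ (x - t) (y - t)
        rwa [sub_sub_sub_cancel_right] at this)
    rwa [integral_mul_const, b.integral_normed, one_mul] at h1
  refine ⟨b.normed μ ⋆[ContinuousLinearMap.lsmul ℝ ℝ, μ] ψ, ?_, hlip, fun x => ?_, fun x => ?_⟩
  · exact b.hasCompactSupport_normed.contDiff_convolution_left _ (b.contDiff_normed (n := 1))
      hc.locallyIntegrable
  · exact norm_fderiv_le_of_lip' ℝ hL (Filter.Eventually.of_forall fun y => hlip y x)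
  · rw [← Real.dist_eq]
    refine b.dist_normed_convolution_le hc.aestronglyMeasurable fun y hy => ?_
    rw [Real.dist_eq]
    refine (hψ y x).trans ?_
    have h1 : ‖y - x‖ ≤ η / (L + 1) := (mem_ball_iff_norm.1 hy).le
    have h2 := mul_le_mul_of_nonneg_left h1 hL
    have h3 : L * (η / (L + 1)) ≤ η := by
      rw [← mul_div_assoc, div_le_iff₀ (by positivity)]
      nlinarith
    linarith

/-- a smooth cutoff family -/
theorem exists_cutoff (d : ℕ) : ∃ (χ : ℕ → E d → ℝ) (C : ℝ), (∀ n, ContDiff ℝ 1 (χ n)) ∧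
    (∀ n, HasCompactSupport (χ n)) ∧ (∀ n x, 0 ≤ χ n x ∧ χ n x ≤ 1) ∧
    (∀ (n : ℕ) x, ‖x‖ ≤ n → χ n x = 1) ∧ (∀ (n : ℕ) x, ‖fderiv ℝ (χ n) x‖ ≤ C / (n + 1)) := by
  let b : ContDiffBump (0 : E d) := ⟨1, 2, by norm_num, by norm_num⟩
  have hb : ContDiff ℝ 1 b := b.contDiff (n := 1)
  obtain ⟨C, hC⟩ := (hb.continuous_fderiv (by norm_num)).bounded_above_of_compact_support
    (b.hasCompactSupport.fderiv ℝ)
  have hp : ∀ n : ℕ, (0 : ℝ) < ((n : ℝ) + 1)⁻¹ := fun n => by positivity
  refine ⟨fun n x => b (((n : ℝ) + 1)⁻¹ • x), C, fun n => hb.comp (by fun_prop),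
    fun n => b.hasCompactSupport.comp_smul (hp n).ne', fun n x => ⟨b.nonneg, b.le_one⟩,
    fun n x hx => b.one_of_mem_closedBall ?_, fun n x => ?_⟩
  · rw [mem_closedBall_zero_iff, norm_smul, Real.norm_of_nonneg (hp n).le,
      inv_mul_le_iff₀ (by positivity)]
    show ‖x‖ ≤ (n + 1) * 1
    linarith
  · rw [fderiv_comp_smul, norm_smul, Real.norm_of_nonneg (hp n).le, div_eq_inv_mul]
    exact mul_le_mul_of_nonneg_left (hC _) (hp n).le

end Vale.Agent.P347
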