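import Vale.Agent.P347.Misc
import Vale.Agent.P074.APL

/-! TASK Poincare: sharp Poincare inequality for strongly log-concave measures
(Prekopa-Leindler, then the Bobkov-Ledoux argument). -/

open MeasureTheory ProbabilityTheory Filter Topology

namespace Vale.Agent.P347

variable {d : ℕ}

namespace Poin

theorem integral_exp_pos' {p : E d → ℝ} (ip : Integrable (fun x => Real.exp (p x)) volume) :
    0 < ∫ x, Real.exp (p x) := integral_exp_pos ip

theorem pl {p q r : E d → ℝ} (hp : Continuous p) (hq : Continuous q) (hr : Continuous r)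
    (ip : Integrable (fun x => Real.exp (p x)) volume)
    (iq : Integrable (fun x => Real.exp (q x)) volume)
    (ir : Integrable (fun x => Real.exp (r x)) volume)
    (h : ∀ x y, (p x + q y) / 2 ≤ r ((1 / 2 : ℝ) • (x + y))) :
    (∫ x, Real.exp (p x)) * (∫ x, Real.exp (q x)) ≤ (∫ x, Real.exp (r x)) ^ 2 := by
  have hA := integral_exp_pos' ip
  have hB := integral_exp_pos' iq
  have hZ := integral_exp_pos' ir
  have key : ∀ {s : E d → ℝ}, Integrable (fun x => Real.exp (s x)) volume → ∀ c : ℝ,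
      ∫⁻ x, ENNReal.ofReal (Real.exp (s x - c)) =
        ENNReal.ofReal ((∫ x, Real.exp (s x)) / Real.exp c) := by
    intro s is c
    simp_rw [Real.exp_sub]
    rw [← integral_div, ofReal_integral_eq_lintegral_ofReal (is.div_const _)
      (ae_of_all _ fun x => by positivity)]
  set A := ∫ x, Real.exp (p x)
  set B := ∫ x, Real.exp (q x)
  set Z := ∫ x, Real.exp (r x)
  have a1 : ∫⁻ x, ENNReal.ofReal (Real.exp (p x - Real.log A)) = 1 := by
    rw [key ip, Real.exp_log hA, div_self hA.ne', ENNReal.ofReal_one]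
  have b1 : ∫⁻ x, ENNReal.ofReal (Real.exp (q x - Real.log B)) = 1 := by
    rw [key iq, Real.exp_log hB, div_self hB.ne', ENNReal.ofReal_one]
  have := P074.apl_euclidean d (fun x => ENNReal.ofReal (Real.exp (p x - Real.log A)))
    (fun x => ENNReal.ofReal (Real.exp (q x - Real.log B)))
    (fun x => ENNReal.ofReal (Real.exp (r x - (Real.log A + Real.log B) / 2)))
    (fun _ => 1) (fun _ => 1) 1 (by fun_prop) (by fun_prop) (by fun_prop) measurable_const
    measurable_const one_ne_zero a1 b1 (by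
      intro x y
      rw [add_mul, one_mul]
      refine add_le_add ?_ le_rfl
      rw [← ENNReal.ofReal_mul (Real.exp_pos _).le,
        ENNReal.ofReal_rpow_of_nonneg (by positivity) (by norm_num), ← Real.exp_add,
        ← Real.exp_mul]
      refine ENNReal.ofReal_le_ofReal (Real.exp_le_exp.2 ?_)
      linarith [h x y])
  simp only [one_mul] at this
  rw [a1, b1, key ir, ENNReal.add_le_add_iff_right ENNReal.one_ne_top, ENNReal.one_le_ofReal,
    one_le_div (Real.exp_pos _)] at this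
  have h2 := pow_le_pow_left₀ (Real.exp_pos _).le this 2
  rwa [← Real.exp_nat_mul, show ((2 : ℕ) : ℝ) * ((Real.log A + Real.log B) / 2) =
    Real.log A + Real.log B by push_cast; ring, Real.exp_add, Real.exp_log hA,
    Real.exp_log hB] at h2

theorem small {x K e : ℝ} (he : 0 < e) (h : ∀ ε, 0 < ε → ε ≤ e → x ≤ ε * K) : x ≤ 0 := by
  have ht : Tendsto (fun ε : ℝ => ε * K) (𝓝[>] 0) (𝓝 0) := by
    have : Tendsto (fun ε : ℝ => ε * K) (𝓝 0) (𝓝 (0 * K)) := tendsto_id.mul_const K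
    rw [zero_mul] at this
    exact this.mono_left nhdsWithin_le_nhds
  refine ge_of_tendsto ht ?_
  filter_upwards [Ioc_mem_nhdsGT he] with ε hε using h ε hε.1 hε.2

theorem expo {ε F G R : ℝ} (h0 : 0 < ε) (h1 : ε ≤ 1) (hF : |F| ≤ R) (hG : |G| ≤ R)
    (hR : ε * (2 * R) ≤ 1) :
    1 + ε * F - ε ^ 2 * G + ε ^ 2 / 2 * F ^ 2 - ε ^ 3 * (R ^ 2 + 8 * R ^ 3) ≤
      Real.exp (ε * F - ε ^ 2 * G) := by
  have hR0 : 0 ≤ R := (abs_nonneg _).trans hF
  have a1 : |F - ε * G| ≤ 2 * R := by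
    have := abs_sub F (ε * G)
    rw [abs_mul, abs_of_pos h0] at this
    nlinarith [abs_nonneg G]
  have a2 : |ε * F - ε ^ 2 * G| ≤ ε * (2 * R) := by
    rw [show ε * F - ε ^ 2 * G = ε * (F - ε * G) by ring, abs_mul, abs_of_pos h0]
    exact mul_le_mul_of_nonneg_left a1 h0.le
  have a3 := Real.exp_bound (a2.trans hR) (n := 3) (by norm_num)
  simp only [Finset.sum_range_succ, Finset.range_zero, Finset.sum_empty, Nat.factorial] at a3
  norm_num at a3
  have a4 := pow_le_pow_left₀ (abs_nonneg _) a2 3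
  have a5 : F * G ≤ R ^ 2 := by
    have := mul_le_mul hF hG (abs_nonneg _) hR0
    rw [← abs_mul] at this
    nlinarith [le_abs_self (F * G)]
  have a6 := mul_le_mul_of_nonneg_left a5 (by positivity : 0 ≤ ε ^ 3)
  have a7 := (abs_le.1 a3).1
  have a8 : 0 ≤ |ε * F - ε ^ 2 * G| ^ 3 := by positivity
  have a9 : 0 ≤ ε ^ 4 * G ^ 2 := by positivity
  nlinarith

theorem scalar {V D C ε P Q : ℝ} (hV : 0 ≤ V) (hD : 0 ≤ D) (hC : 0 ≤ C) (h0 : 0 < ε) (h1 : ε ≤ 1)
    (h2 : ε * (V + D + C) ≤ 1) (hP : 1 - ε ^ 2 * D + ε ^ 2 / 2 * V - ε ^ 3 * C ≤ P)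
    (hQ : 1 + ε ^ 2 / 2 * V - ε ^ 3 * C ≤ Q) (hPQ : P * Q ≤ 1) :
    V - D ≤ ε * (2 * C + (V + D + C) ^ 2) := by
  set K := V + D + C with hK
  set a := V / 2 - D - ε * C with ha
  set b := V / 2 - ε * C with hb
  have hεC : ε * C ≤ C := mul_le_of_le_one_left hC h1
  have hεC0 : 0 ≤ ε * C := by positivity
  have a1 : |a| ≤ K := by rw [abs_le]; constructor <;> linarith
  have b1 : |b| ≤ K := by rw [abs_le]; constructor <;> linarith
  have hK0 : 0 ≤ K := by positivity
  have e2 : ε ^ 2 * K ≤ 1 := by nlinarith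
  have a2 : 0 ≤ 1 + ε ^ 2 * a := by
    nlinarith [mul_le_mul_of_nonneg_left (abs_le.1 a1).1 (sq_nonneg ε)]
  have b2 : 0 ≤ 1 + ε ^ 2 * b := by
    nlinarith [mul_le_mul_of_nonneg_left (abs_le.1 b1).1 (sq_nonneg ε)]
  have a3 : 1 + ε ^ 2 * a ≤ P := by rw [ha]; linarith
  have b3 : 1 + ε ^ 2 * b ≤ Q := by rw [hb]; linarith
  have h3 := (mul_le_mul a3 b3 b2 (a2.trans a3)).trans hPQ
  have h4 : -(a * b) ≤ K ^ 2 := by
    have := mul_le_mul a1 b1 (abs_nonneg _) hK0
    rw [← abs_mul] at this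
    nlinarith [neg_abs_le (a * b)]
  have h5 : ε ^ 2 * (a + b) ≤ ε ^ 2 * (ε ^ 2 * K ^ 2) := by
    nlinarith [mul_le_mul_of_nonneg_left h4 (by positivity : 0 ≤ ε ^ 4)]
  have h6 := le_of_mul_le_mul_left h5 (by positivity)
  have h7 : ε ^ 2 * K ^ 2 ≤ ε * K ^ 2 := mul_le_mul_of_nonneg_right (by nlinarith) (sq_nonneg K)
  rw [ha, hb] at h6
  linarith

section
variable {Ψ : E d → ℝ} {α : ℝ}

theorem int_exp (hint : ∀ p : ℕ, Integrable (fun x : E d => (1 + ‖x‖) ^ p * Real.exp (-Ψ x)) volume) :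
    Integrable (fun x => Real.exp (-Ψ x)) volume := by simpa using hint 0

theorem int_pg (hΨ : Continuous Ψ)
    (hint : ∀ p : ℕ, Integrable (fun x : E d => (1 + ‖x‖) ^ p * Real.exp (-Ψ x)) volume)
    {f : E d → ℝ} (hf : Continuous f) (hg : PG f) :
    Integrable f (volume.tilted fun x => -Ψ x) := by
  rw [integrable_tilted_iff (int_exp hint)]
  obtain ⟨C, p, h⟩ := hg
  refine ((hint p).const_mul C).mono' (by fun_prop) (ae_of_all _ fun x => ?_)
  rw [norm_smul, Real.norm_of_nonneg (Real.exp_pos _).le, Real.norm_eq_abs, ← mul_assoc,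
    mul_comm]
  exact mul_le_mul_of_nonneg_right (h x) (Real.exp_pos _).le

theorem pg_bdd {f : E d → ℝ} {R : ℝ} (h : ∀ x, |f x| ≤ R) : PG f :=
  ⟨R, 0, fun x => by simpa using h x⟩

theorem tau (hΨ : Continuous Ψ)
    (hmid : ∀ x y : E d, Ψ ((1 / 2 : ℝ) • (x + y)) ≤ (Ψ x + Ψ y) / 2 - α / 8 * ‖x - y‖ ^ 2)
    (hint : ∀ p : ℕ, Integrable (fun x : E d => (1 + ‖x‖) ^ p * Real.exp (-Ψ x)) volume)
    {g k : E d → ℝ} (hg : Continuous g) (hk : Continuous k)
    (ig : Integrable (fun x => Real.exp (g x)) (volume.tilted fun x => -Ψ x))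
    (ik : Integrable (fun x => Real.exp (k x)) (volume.tilted fun x => -Ψ x))
    (h : ∀ x y, g x + k y ≤ α / 4 * ‖x - y‖ ^ 2) :
    (∫ x, Real.exp (g x) ∂(volume.tilted fun x => -Ψ x)) *
      (∫ x, Real.exp (k x) ∂(volume.tilted fun x => -Ψ x)) ≤ 1 := by
  have hZ := integral_exp_pos' (int_exp hint)
  rw [integrable_tilted_iff (int_exp hint)] at ig ik
  simp only [smul_eq_mul, ← Real.exp_add] at ig ik
  have := pl (p := fun x => -Ψ x + g x) (q := fun x => -Ψ x + k x) (r := fun x => -Ψ x)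
    (by fun_prop) (by fun_prop) (by fun_prop) ig ik (int_exp hint)
    (fun x y => by linarith [hmid x y, h x y])
  rw [integral_exp_tilted, integral_exp_tilted, div_mul_div_comm, div_le_one (by positivity),
    ← sq]
  exact this

theorem core (hΨ : Continuous Ψ) (hα : 0 < α)
    (hmid : ∀ x y : E d, Ψ ((1 / 2 : ℝ) • (x + y)) ≤ (Ψ x + Ψ y) / 2 - α / 8 * ‖x - y‖ ^ 2)
    (hint : ∀ p : ℕ, Integrable (fun x : E d => (1 + ‖x‖) ^ p * Real.exp (-Ψ x)) volume)
    {F w : E d → ℝ} (hF : Continuous F) (hw : Continuous w) {R δ : ℝ} (hδ : 0 < δ)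
    (bF : ∀ x, |F x| ≤ R) (bw : ∀ x, |w x ^ 2 / α| ≤ R)
    (h0 : ∫ x, F x ∂(volume.tilted fun x => -Ψ x) = 0)
    (hloc : ∀ x y, ‖x - y‖ < δ → F x - F y ≤ w x * ‖x - y‖) :
    ∫ x, F x ^ 2 ∂(volume.tilted fun x => -Ψ x) ≤
      ∫ x, w x ^ 2 / α ∂(volume.tilted fun x => -Ψ x) := by
  have hP : IsProbabilityMeasure (volume.tilted fun x => -Ψ x) :=
    isProbabilityMeasure_tilted (int_exp hint)
  set μ := (volume.tilted fun x => -Ψ x) with hμ
  have hR : 0 ≤ R := (abs_nonneg _).trans (bF 0)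
  have iF : Integrable F μ := int_pg hΨ hint hF (pg_bdd bF)
  have iF2 : Integrable (fun x => F x ^ 2) μ := int_pg hΨ hint (by fun_prop) ((pg_bdd bF).pow 2)
  have iG : Integrable (fun x => w x ^ 2 / α) μ := int_pg hΨ hint (by fun_prop) (pg_bdd bw)
  have hV : 0 ≤ ∫ x, F x ^ 2 ∂μ := integral_nonneg fun x => sq_nonneg _
  have hD : 0 ≤ ∫ x, w x ^ 2 / α ∂μ := integral_nonneg fun x => by positivity
  set V := ∫ x, F x ^ 2 ∂μ with hVd
  set D := ∫ x, w x ^ 2 / α ∂μ with hDd
  set C := R ^ 2 + 8 * R ^ 3 with hC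
  have hC0 : 0 ≤ C := by positivity
  rw [← sub_nonpos]
  refine small (K := 2 * C + (V + D + C) ^ 2)
    (e := min (1 / (1 + 2 * R + (V + D + C))) (α / 4 * δ ^ 2 / (2 * R + 1))) (by positivity)
    fun ε e0 e1 => ?_
  have e2 : ε * (1 + 2 * R + (V + D + C)) ≤ 1 :=
    (le_div_iff₀ (by positivity)).1 (e1.trans (min_le_left _ _))
  have e3 : ε * (2 * R + 1) ≤ α / 4 * δ ^ 2 :=
    (le_div_iff₀ (by positivity)).1 (e1.trans (min_le_right _ _))
  have p1 : 0 ≤ ε * (2 * R) := by positivity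
  have p2 : 0 ≤ ε * (V + D + C) := by positivity
  have e4 : ε ≤ 1 := by nlinarith
  have e5 : ε * (2 * R) ≤ 1 := by nlinarith
  have e6 : ε * (V + D + C) ≤ 1 := by nlinarith
  have ig : Integrable (fun x => Real.exp (ε * F x - ε ^ 2 * (w x ^ 2 / α))) μ :=
    int_pg hΨ hint (by fun_prop) (pg_bdd (R := Real.exp (ε * R)) fun x => by
      rw [abs_of_pos (Real.exp_pos _), Real.exp_le_exp]
      have := mul_le_mul_of_nonneg_left ((le_abs_self _).trans (bF x)) e0.le
      have h2 : 0 ≤ ε ^ 2 * (w x ^ 2 / α) := by positivity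
      linarith)
  have ik : Integrable (fun x => Real.exp (ε * -F x - ε ^ 2 * 0)) μ :=
    int_pg hΨ hint (by fun_prop) (pg_bdd (R := Real.exp (ε * R)) fun x => by
      rw [abs_of_pos (Real.exp_pos _), Real.exp_le_exp]
      have := mul_le_mul_of_nonneg_left ((neg_le_abs _).trans (bF x)) e0.le
      linarith)
  have ht := tau hΨ hmid hint (g := fun x => ε * F x - ε ^ 2 * (w x ^ 2 / α))
    (k := fun x => ε * -F x - ε ^ 2 * 0) (by fun_prop) (by fun_prop) ig ik (by
      intro x y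
      by_cases hxy : ‖x - y‖ < δ
      · have a1 := mul_le_mul_of_nonneg_left (hloc x y hxy) e0.le
        have a2 : α / 4 * ‖x - y‖ ^ 2 + ε ^ 2 * (w x ^ 2 / α) - ε * (w x * ‖x - y‖) =
            (α / 2 * ‖x - y‖ - ε * w x) ^ 2 / α := by
          field_simp
          ring
        have a3 : 0 ≤ (α / 2 * ‖x - y‖ - ε * w x) ^ 2 / α := by positivity
        linarith
      · have a1 := mul_le_mul_of_nonneg_left ((le_abs_self _).trans (bF x)) e0.le
        have a2 := mul_le_mul_of_nonneg_left ((neg_le_abs _).trans (bF y)) e0.le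
        have a3 : 0 ≤ ε ^ 2 * (w x ^ 2 / α) := by positivity
        have a4 := mul_le_mul_of_nonneg_left (pow_le_pow_left₀ hδ.le (not_lt.1 hxy) 2)
          (by positivity : 0 ≤ α / 4)
        linarith)
  refine scalar hV hD hC0 e0 e4 e6 ?_ ?_ ht
  · have j1 : Integrable (fun x => 1 + ε * F x) μ := (integrable_const _).add (iF.const_mul _)
    have j2 : Integrable (fun x => 1 + ε * F x - ε ^ 2 * (w x ^ 2 / α)) μ :=
      j1.sub (iG.const_mul _)
    have j3 : Integrable (fun x => 1 + ε * F x - ε ^ 2 * (w x ^ 2 / α) + ε ^ 2 / 2 * F x ^ 2) μ :=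
      j2.add (iF2.const_mul _)
    have := integral_mono (j3.sub (integrable_const (ε ^ 3 * C))) ig
      (fun x => expo e0 e4 (bF x) (bw x) e5)
    simp only [Pi.sub_apply] at this
    rw [integral_sub j3 (integrable_const _), integral_add j2 (iF2.const_mul _),
      integral_sub j1 (iG.const_mul _), integral_add (integrable_const _) (iF.const_mul _),
      integral_const_mul, integral_const_mul, integral_const_mul, h0] at this
    simpa using this
  · have j1 : Integrable (fun x => 1 - ε * F x) μ := (integrable_const _).sub (iF.const_mul _)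
    have j3 : Integrable (fun x => 1 - ε * F x + ε ^ 2 / 2 * F x ^ 2) μ :=
      j1.add (iF2.const_mul _)
    have := integral_mono (j3.sub (integrable_const (ε ^ 3 * C))) ik (fun x => by
      have := expo (F := -F x) (G := 0) e0 e4 (by rw [abs_neg]; exact bF x) (by simpa using hR) e5
      simp only [Pi.sub_apply]
      refine le_trans (le_of_eq ?_) this
      ring)
    simp only [Pi.sub_apply] at this
    rw [integral_sub j3 (integrable_const _), integral_add j1 (iF2.const_mul _),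
      integral_sub (integrable_const _) (iF.const_mul _),
      integral_const_mul, integral_const_mul, h0] at this
    simpa using this

theorem compact (hΨ : Continuous Ψ) (hα : 0 < α)
    (hmid : ∀ x y : E d, Ψ ((1 / 2 : ℝ) • (x + y)) ≤ (Ψ x + Ψ y) / 2 - α / 8 * ‖x - y‖ ^ 2)
    (hint : ∀ p : ℕ, Integrable (fun x : E d => (1 + ‖x‖) ^ p * Real.exp (-Ψ x)) volume)
    {f : E d → ℝ} (hf : ContDiff ℝ 1 f) (hc : HasCompactSupport f) :
    ∫ x, f x ^ 2 ∂(volume.tilted fun x => -Ψ x) - (∫ x, f x ∂(volume.tilted fun x => -Ψ x)) ^ 2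
      ≤ α⁻¹ * ∫ x, ‖fderiv ℝ f x‖ ^ 2 ∂(volume.tilted fun x => -Ψ x) := by
  have hP : IsProbabilityMeasure (volume.tilted fun x => -Ψ x) :=
    isProbabilityMeasure_tilted (int_exp hint)
  have hf' := hf.continuous_fderiv (by norm_num)
  have hfc := hf.continuous
  obtain ⟨M, hM⟩ := hfc.bounded_above_of_compact_support hc
  obtain ⟨L, hL⟩ := hf'.bounded_above_of_compact_support (hc.fderiv ℝ)
  have hL0 : 0 ≤ L := (norm_nonneg _).trans (hL 0)
  have huc := (hc.fderiv ℝ).uniformContinuous_of_continuous hf'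
  have if1 := int_pg hΨ hint hfc (pg_bdd hM)
  have if2 := int_pg hΨ hint (f := fun x => f x ^ 2) (by fun_prop) ((pg_bdd hM).pow 2)
  have ig := int_pg hΨ hint (f := fun x => ‖fderiv ℝ f x‖ ^ 2) (by fun_prop)
    ((pg_bdd (R := L) fun x => by rw [abs_norm]; exact hL x).pow 2)
  set m := ∫ x, f x ∂(volume.tilted fun x => -Ψ x) with hm
  have hvar : ∫ x, (f x - m) ^ 2 ∂(volume.tilted fun x => -Ψ x) =
      ∫ x, f x ^ 2 ∂(volume.tilted fun x => -Ψ x) - m ^ 2 := by
    have j1 : Integrable (fun x => f x ^ 2 - 2 * m * f x) (volume.tilted fun x => -Ψ x) :=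
      if2.sub (if1.const_mul _)
    simp_rw [show ∀ x, (f x - m) ^ 2 = f x ^ 2 - 2 * m * f x + m ^ 2 from fun x => by ring]
    rw [integral_add j1 (integrable_const _), integral_sub if2 (if1.const_mul _),
      integral_const_mul, ← hm]
    simp
    ring
  rw [← hvar, ← sub_nonpos]
  refine small (K := α⁻¹ * (2 * L + 1)) one_pos fun η η0 η1 => ?_
  obtain ⟨δ, hδ, hd⟩ := Metric.uniformContinuous_iff.1 huc η η0
  have := core hΨ hα hmid hint (F := fun x => f x - m) (w := fun x => ‖fderiv ℝ f x‖ + η)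
    (by fun_prop) (by fun_prop) (R := M + |m| + (L + 1) ^ 2 / α) hδ (fun x => by
      have a1 := abs_sub (f x) m
      have a2 : |f x| ≤ M := hM x
      have a3 : 0 ≤ (L + 1) ^ 2 / α := by positivity
      linarith) (fun x => by
      have a1 : (‖fderiv ℝ f x‖ + η) ^ 2 / α ≤ (L + 1) ^ 2 / α :=
        div_le_div_of_nonneg_right (pow_le_pow_left₀ (by positivity) (by linarith [hL x]) 2) hα.le
      rw [abs_of_nonneg (by positivity)]
      linarith [(norm_nonneg _).trans (hM 0), abs_nonneg m])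
    (by rw [integral_sub if1 (integrable_const _)]; simp [hm]) (fun x y hxy => by
      have := (convex_ball x δ).norm_image_sub_le_of_norm_fderiv_le (𝕜 := ℝ) (f := f)
        (C := ‖fderiv ℝ f x‖ + η) (fun z _ => hf.differentiable (by norm_num) z) (fun z hz => by
          have h1 := hd (Metric.mem_ball.1 hz)
          rw [dist_eq_norm] at h1
          linarith [norm_sub_norm_le (fderiv ℝ f z) (fderiv ℝ f x)])
        (x := y) (y := x) (by rw [mem_ball_iff_norm']; exact hxy) (Metric.mem_ball_self hδ)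
      have h2 := le_abs_self (f x - f y)
      rw [Real.norm_eq_abs] at this
      linarith)
  have h2 : ∫ x, (‖fderiv ℝ f x‖ + η) ^ 2 / α ∂(volume.tilted fun x => -Ψ x) ≤
      ∫ x, (α⁻¹ * ‖fderiv ℝ f x‖ ^ 2 + η * (α⁻¹ * (2 * L + 1))) ∂(volume.tilted fun x => -Ψ x) := by
    refine integral_mono_of_nonneg (ae_of_all _ fun x => by positivity)
      ((ig.const_mul _).add (integrable_const _)) (ae_of_all _ fun x => ?_)
    dsimp only
    rw [div_eq_inv_mul, mul_left_comm, ← mul_add]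
    refine mul_le_mul_of_nonneg_left ?_ (by positivity)
    nlinarith [mul_le_mul_of_nonneg_left (hL x) η0.le]
  rw [integral_add (ig.const_mul _) (integrable_const _), integral_const_mul] at h2
  simp only [integral_const, probReal_univ, one_smul] at h2
  linarith

end

end Poin

open Poin in
/-- Proof plan. Let `μ ∝ exp (-Ψ)`.
(1) Property (τ): if `f, g` are bounded continuous with `g x - f y ≤ α ‖x - y‖² / 4` then
`∫ exp g dμ * ∫ exp (-f) dμ ≤ 1` (midpoint Prekopa-Leindler for `exp (g - Ψ)`, `exp (-f - Ψ)`,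
`exp (-Ψ)`).
(2) For `f` of class `C¹` with compact support and `η > 0`, for small `ε` the pair `ε f`,
`g = ε f - ε² (‖f'‖ + η)² / α` satisfies (1) (uniform continuity of `f'` when
`‖x - y‖ ≤ 4 ε L / α`, the Lipschitz bound otherwise). Expand to second order in `ε`.
(3) Remove the compact support with `exists_cutoff` and dominated convergence. -/
theorem poincare {Ψ : E d → ℝ} (hΨ : Continuous Ψ) {α : ℝ} (hα : 0 < α)
    (hmid : ∀ x y : E d, Ψ ((1 / 2 : ℝ) • (x + y)) ≤ (Ψ x + Ψ y) / 2 - α / 8 * ‖x - y‖ ^ 2)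
    (hint : ∀ p : ℕ, Integrable (fun x : E d => (1 + ‖x‖) ^ p * Real.exp (-Ψ x)) volume)
    {f : E d → ℝ} (hf : ContDiff ℝ 1 f) (hg : PG f) (hg' : PG fun x => ‖fderiv ℝ f x‖) :
    ∫ x, f x ^ 2 ∂(volume.tilted fun x => -Ψ x) - (∫ x, f x ∂(volume.tilted fun x => -Ψ x)) ^ 2
      ≤ α⁻¹ * ∫ x, ‖fderiv ℝ f x‖ ^ 2 ∂(volume.tilted fun x => -Ψ x) := by
  obtain ⟨χ, C, c1, c2, c3, c4, c5⟩ := exists_cutoff d
  have hf' := hf.continuous_fderiv (by norm_num)
  have hfc := hf.continuous
  have hC : 0 ≤ C := by simpa using (norm_nonneg _).trans (c5 0 0)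
  have habs : PG fun x => |f x| := hg.of_le fun x => by simp
  have hev : ∀ x, ∀ᶠ n : ℕ in atTop, χ n x = 1 := fun x => by
    filter_upwards [tendsto_natCast_atTop_atTop.eventually_ge_atTop ‖x‖] with n hn
      using c4 n x hn
  have hb : ∀ n x, |χ n x * f x| ≤ |f x| := fun n x => by
    rw [abs_mul, abs_of_nonneg (c3 n x).1]
    exact mul_le_of_le_one_left (abs_nonneg _) (c3 n x).2
  have hcc : ∀ n, Continuous (χ n) := fun n => (c1 n).continuous
  have t1 : Tendsto (fun n => ∫ x, χ n x * f x ∂(volume.tilted fun x => -Ψ x)) atTop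
      (𝓝 (∫ x, f x ∂(volume.tilted fun x => -Ψ x))) :=
    tendsto_integral_of_dominated_convergence (fun x => |f x|) (fun n => by fun_prop)
      (int_pg hΨ hint (by fun_prop) habs) (fun n => ae_of_all _ (hb n))
      (ae_of_all _ fun x => tendsto_const_nhds.congr' (by
        filter_upwards [hev x] with n hn
        rw [hn, one_mul]))
  have t2 : Tendsto (fun n => ∫ x, (χ n x * f x) ^ 2 ∂(volume.tilted fun x => -Ψ x)) atTop
      (𝓝 (∫ x, f x ^ 2 ∂(volume.tilted fun x => -Ψ x))) :=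
    tendsto_integral_of_dominated_convergence (fun x => f x ^ 2) (fun n => by fun_prop)
      (int_pg hΨ hint (by fun_prop) (hg.pow 2)) (fun n => ae_of_all _ fun x => by
        rw [Real.norm_of_nonneg (sq_nonneg _)]
        exact sq_le_sq.2 (hb n x))
      (ae_of_all _ fun x => tendsto_const_nhds.congr' (by
        filter_upwards [hev x] with n hn
        rw [hn, one_mul]))
  have ib : ∀ c : ℝ, Integrable (fun x => (‖fderiv ℝ f x‖ + |f x| * c) ^ 2)
      (volume.tilted fun x => -Ψ x) := fun c =>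
    int_pg hΨ hint (by fun_prop) ((hg'.add (habs.mul (PG.const c))).pow 2)
  have t3 : Tendsto (fun n : ℕ => ∫ x, (‖fderiv ℝ f x‖ + |f x| * (C / (n + 1))) ^ 2
      ∂(volume.tilted fun x => -Ψ x)) atTop
      (𝓝 (∫ x, ‖fderiv ℝ f x‖ ^ 2 ∂(volume.tilted fun x => -Ψ x))) :=
    tendsto_integral_of_dominated_convergence (fun x => (‖fderiv ℝ f x‖ + |f x| * C) ^ 2)
      (fun n => by fun_prop) (ib C) (fun n => ae_of_all _ fun x => by
        rw [Real.norm_of_nonneg (sq_nonneg _)]
        refine pow_le_pow_left₀ (by positivity) (add_le_add le_rfl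
          (mul_le_mul_of_nonneg_left (div_le_self hC ?_) (abs_nonneg _))) 2
        linarith [Nat.cast_nonneg (α := ℝ) n])
      (ae_of_all _ fun x => by
        have h0 : Tendsto (fun n : ℕ => C / ((n : ℝ) + 1)) atTop (𝓝 0) :=
          tendsto_const_nhds.div_atTop (tendsto_natCast_atTop_atTop.atTop_add tendsto_const_nhds)
        have := ((h0.const_mul |f x|).const_add ‖fderiv ℝ f x‖).pow 2
        simpa using this)
  refine le_of_tendsto_of_tendsto' (t2.sub (t1.pow 2)) (t3.const_mul α⁻¹) fun n => ?_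
  refine (compact hΨ hα hmid hint ((c1 n).mul hf) (c2 n).mul_right).trans
    (mul_le_mul_of_nonneg_left ?_ (by positivity))
  refine integral_mono_of_nonneg (ae_of_all _ fun x => by positivity) (ib _)
    (ae_of_all _ fun x => pow_le_pow_left₀ (norm_nonneg _) ?_ 2)
  rw [fderiv_fun_mul ((c1 n).differentiable (by norm_num) x) (hf.differentiable (by norm_num) x)]
  refine (norm_add_le _ _).trans (add_le_add ?_ ?_)
  · rw [norm_smul, Real.norm_of_nonneg (c3 n x).1]
    exact mul_le_of_le_one_left (norm_nonneg _) (c3 n x).2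
  · rw [norm_smul, Real.norm_eq_abs]
    exact mul_le_mul_of_nonneg_left (c5 n x) (abs_nonneg _)

open Poin in
/-- Lipschitz version (from `poincare` and `exists_smooth_lip`). -/
theorem poincare_lip {Ψ : E d → ℝ} (hΨ : Continuous Ψ) {α : ℝ} (hα : 0 < α)
    (hmid : ∀ x y : E d, Ψ ((1 / 2 : ℝ) • (x + y)) ≤ (Ψ x + Ψ y) / 2 - α / 8 * ‖x - y‖ ^ 2)
    (hint : ∀ p : ℕ, Integrable (fun x : E d => (1 + ‖x‖) ^ p * Real.exp (-Ψ x)) volume)
    {f : E d → ℝ} {L : ℝ} (hL : 0 ≤ L) (hf : LipR L f) :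
    ∫ x, f x ^ 2 ∂(volume.tilted fun x => -Ψ x) - (∫ x, f x ∂(volume.tilted fun x => -Ψ x)) ^ 2
      ≤ α⁻¹ * L ^ 2 := by
  have hP : IsProbabilityMeasure (volume.tilted fun x => -Ψ x) :=
    isProbabilityMeasure_tilted (int_exp hint)
  have hfc := hf.continuous
  have if1 := int_pg hΨ hint hfc hf.pg
  have if2 := int_pg hΨ hint (f := fun x => f x ^ 2) (by fun_prop) (hf.pg.pow 2)
  rw [← sub_nonpos]
  refine small (K := 2 * ∫ x, |f x| ∂(volume.tilted fun x => -Ψ x) +
    2 * |∫ x, f x ∂(volume.tilted fun x => -Ψ x)| + 2) one_pos fun η η0 η1 => ?_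
  obtain ⟨φ, p1, p2, p3, p4⟩ := exists_smooth_lip hL hf η0
  have hφc := p1.continuous
  have iφ1 := int_pg hΨ hint hφc p2.pg
  have iφ2 := int_pg hΨ hint (f := fun x => φ x ^ 2) (by fun_prop) (p2.pg.pow 2)
  have h1 := poincare hΨ hα hmid hint p1 p2.pg
    (pg_bdd (R := L) fun x => by rw [abs_norm]; exact p3 x)
  have h2 : ∫ x, ‖fderiv ℝ φ x‖ ^ 2 ∂(volume.tilted fun x => -Ψ x) ≤ L ^ 2 := by
    have := integral_mono_of_nonneg (μ := volume.tilted fun x => -Ψ x)
      (f := fun x => ‖fderiv ℝ φ x‖ ^ 2) (ae_of_all _ fun x => by positivity)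
      (integrable_const (L ^ 2)) (ae_of_all _ fun x => pow_le_pow_left₀ (norm_nonneg _) (p3 x) 2)
    simpa using this
  have h3 := mul_le_mul_of_nonneg_left h2 (inv_pos.2 hα).le
  have sq_close : ∀ a b : ℝ, |a - b| ≤ η → |a ^ 2 - b ^ 2| ≤ η * (2 * |b| + 1) := by
    intro a b h
    rw [show a ^ 2 - b ^ 2 = (a - b) * (2 * b + (a - b)) by ring, abs_mul]
    refine mul_le_mul h ((abs_add_le _ _).trans ?_) (abs_nonneg _) η0.le
    rw [abs_mul, abs_two]
    linarith
  have h4 : ∫ x, f x ^ 2 ∂(volume.tilted fun x => -Ψ x) ≤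
      ∫ x, (φ x ^ 2 + η * (2 * |f x| + 1)) ∂(volume.tilted fun x => -Ψ x) :=
    integral_mono if2 (iφ2.add (((if1.abs.const_mul 2).add (integrable_const 1)).const_mul η))
      fun x => by linarith [(abs_le.1 (sq_close _ _ (p4 x))).1]
  have j1 : Integrable (fun x => 2 * |f x| + 1) (volume.tilted fun x => -Ψ x) :=
    (if1.abs.const_mul 2).add (integrable_const 1)
  rw [integral_add iφ2 (j1.const_mul η), integral_const_mul,
    integral_add (if1.abs.const_mul 2) (integrable_const 1), integral_const_mul] at h4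
  simp only [integral_const, probReal_univ, one_smul] at h4
  have h5 : |∫ x, φ x ∂(volume.tilted fun x => -Ψ x) - ∫ x, f x ∂(volume.tilted fun x => -Ψ x)|
      ≤ η := by
    rw [← integral_sub iφ1 if1]
    have := norm_integral_le_of_norm_le_const (μ := volume.tilted fun x => -Ψ x)
      (f := fun x => φ x - f x) (C := η) (ae_of_all _ p4)
    simpa using this
  have h6 := (abs_le.1 (sq_close _ _ h5)).2
  linarith

end Vale.Agent.P347
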