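import Vale.Agent.P347.Defs

/-! Shared definitions of the P347 project (see `README` in the projects table). -/

open MeasureTheory ProbabilityTheory

namespace Vale.Agent.P347

variable {d : ℕ}

/-- standard Gaussian measure -/
noncomputable abbrev gam (d : ℕ) : Measure (E d) := stdGaussian (E d)

/-- law of `c + σ ξ` -/
noncomputable def gauss (c : E d) (σ : ℝ) : Measure (E d) := (gam d).map fun ξ => c + σ • ξ

/-- polynomial growth -/
def PG {X : Type*} [Norm X] (f : X → ℝ) : Prop :=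
  ∃ (C : ℝ) (p : ℕ), ∀ x, |f x| ≤ C * (1 + ‖x‖) ^ p

/-- `L`-Lipschitz real function (real constant) -/
def LipR {X : Type*} [NormedAddCommGroup X] (L : ℝ) (ψ : X → ℝ) : Prop :=
  ∀ x y, |ψ x - ψ y| ≤ L * ‖x - y‖

/-- `L`-Lipschitz vector function (real constant) -/
def LipV {X Y : Type*} [NormedAddCommGroup X] [NormedAddCommGroup Y] (L : ℝ) (f : X → Y) : Prop :=
  ∀ x y, ‖f x - f y‖ ≤ L * ‖x - y‖

/-- radial projection onto the closed ball of radius `R` -/
noncomputable def clip (R : ℝ) (x : E d) : E d := if ‖x‖ ≤ R then x else (R / ‖x‖) • x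

/-- potential with Hessian between `α` and `β`, minimum `0` at the origin -/
structure Pot (α β : ℝ) (U : E d → ℝ) : Prop where
  smooth : ContDiff ℝ 2 U
  zero : U 0 = 0
  grad0 : gradient U 0 = 0
  nonneg : 0 ≤ α
  le : α ≤ β
  lip : ∀ x y, ‖gradient U x - gradient U y‖ ≤ β * ‖x - y‖
  lo : ∀ x y, U x + inner ℝ (gradient U x) (y - x) + α / 2 * ‖y - x‖ ^ 2 ≤ U y
  hi : ∀ x y, U y ≤ U x + inner ℝ (gradient U x) (y - x) + β / 2 * ‖y - x‖ ^ 2

/-- unnormalised density of the tilted Gaussian -/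
noncomputable def wt (U : E d → ℝ) (s : ℝ) (x u : E d) : ℝ :=
  Real.exp (-(U u + ‖u - x‖ ^ 2 / (2 * s)))

/-- the law proportional to `exp (-U u - ‖u - x‖ ^ 2 / (2 s)) du` -/
noncomputable def tilt (U : E d → ℝ) (s : ℝ) (x : E d) : Measure (E d) :=
  (volume : Measure (E d)).tilted fun u => -(U u + ‖u - x‖ ^ 2 / (2 * s))

/-- the effective gradient `(x - mean) / s` (equal to the mean of `∇ U` under `tilt`) -/
noncomputable def Gt (U : E d → ℝ) (s : ℝ) (x : E d) : E d :=
  s⁻¹ • (x - ∫ u, u ∂(tilt U s x))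

/-- `F(s,x) = E exp (-U (x + √s ξ))` -/
noncomputable def Fz (U : E d → ℝ) (s : ℝ) (x : E d) : ℝ :=
  ∫ ξ, Real.exp (-U (x + √s • ξ)) ∂(gam d)

/-- component `m` of a pair -/
def sel {α : Type*} (m : Fin 2) (p : α × α) : α := ![p.1, p.2] m

/-- level `1 - |b|²` -/
def lev (b : ℝ × ℝ) : ℝ := 1 - (b.1 ^ 2 + b.2 ^ 2)

/-- the point `y + b · Z` -/
noncomputable def pt (y : E d) (b : ℝ × ℝ) (Z : E d × E d) : E d := y + (b.1 • Z.1 + b.2 • Z.2)

/-- the measure `Π_b` on pairs: Gaussian times `F(1 - |b|², y + b · Z) / F(1, y)` -/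
noncomputable def PiM (U : E d → ℝ) (y : E d) (b : ℝ × ℝ) : Measure (E d × E d) :=
  ((gam d).prod (gam d)).withDensity fun Z =>
    ENNReal.ofReal (Fz U (lev b) (pt y b Z) / Fz U 1 y)

/-- the force at parameter `b` and state `Z` -/
noncomputable def gfun (U : E d → ℝ) (y : E d) (b : ℝ × ℝ) (Z : E d × E d) : E d :=
  Gt U (lev b) (pt y b Z)

/-- Wasserstein-1 closeness in dual form -/
structure Close (η : ℝ) (μ ν : Measure (E d)) : Prop where
  pl : IsProbabilityMeasure μ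
  pr : IsProbabilityMeasure ν
  il : Integrable (fun x => ‖x‖) μ
  ir : Integrable (fun x => ‖x‖) ν
  le : ∀ ψ : E d → ℝ, LipR 1 ψ → |∫ x, ψ x ∂μ - ∫ x, ψ x ∂ν| ≤ η

/-- admissible potentials as a type -/
abbrev Vd (d : ℕ) : Type := {V : E d → ℝ // Admissible V}

/-- the Gibbs law convolved with a Gaussian of variance `T` -/
noncomputable def rho (V : E d → ℝ) (T : ℝ) : Measure (E d) :=
  ((gibbs V).prod (gam d)).map fun p => p.1 + √T • p.2

end Vale.Agent.P347
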