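import Mathlib

open MeasureTheory ProbabilityTheory

namespace Vale.Agent.P347

/-- Euclidean space of dimension `d`. -/
abbrev E (d : ℕ) : Type := EuclideanSpace ℝ (Fin d)

/-- The class of potentials: twice continuously differentiable, value and gradient zero at the
origin, Hessian between the identity and twice the identity. -/
def Admissible {d : ℕ} (V : E d → ℝ) : Prop :=
  ContDiff ℝ 2 V ∧ V 0 = 0 ∧ gradient V 0 = 0 ∧
    ∀ x v : E d, ‖v‖ ^ 2 ≤ iteratedFDeriv ℝ 2 V x ![v, v] ∧
      iteratedFDeriv ℝ 2 V x ![v, v] ≤ 2 * ‖v‖ ^ 2

/-- The Gibbs law with density proportional to `exp (-V)` with respect to Lebesgue measure. -/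
noncomputable def gibbs {d : ℕ} (V : E d → ℝ) : Measure (E d) :=
  (volume : Measure (E d)).tilted fun x => -V x

/-- A randomized adaptive algorithm: it draws `m` random reals, its `k`-th query point and its
output are measurable functions of these reals and of the record of the oracle answers. -/
structure Alg (d : ℕ) where
  m : ℕ
  query : ℕ → (Fin m → ℝ) × (ℕ → ℝ × E d) → E d
  output : (Fin m → ℝ) × (ℕ → ℝ × E d) → E d
  measurable_query : ∀ k, Measurable (query k)
  measurable_output : Measurable output

/-- The record after `k` queries: entry `j < k` is the answer (value, gradient) to query `j`,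
the other entries are zero. -/
noncomputable def Alg.record {d : ℕ} (A : Alg d) (V : E d → ℝ) (ω : Fin A.m → ℝ) :
    ℕ → ℕ → ℝ × E d
  | 0 => fun _ => (0, 0)
  | k + 1 =>
    Function.update (A.record V ω k) k
      (V (A.query k (ω, A.record V ω k)), gradient V (A.query k (ω, A.record V ω k)))

/-- The law of the output after exactly `q` queries; the random reals are independent standard
Gaussians. -/
noncomputable def Alg.law {d : ℕ} (A : Alg d) (q : ℕ) (V : E d → ℝ) : Measure (E d) :=
  (Measure.pi fun _ : Fin A.m => gaussianReal 0 1).map fun ω => A.output (ω, A.record V ω q)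

/-- Some algorithm with `q` queries is within total variation `1/10` of the Gibbs law of every
admissible potential. -/
def Solves (d q : ℕ) : Prop :=
  ∃ A : Alg d, ∀ V : E d → ℝ, Admissible V → ∀ B : Set (E d), MeasurableSet B →
    |(A.law q V).real B - (gibbs V).real B| ≤ 1 / 10

/-- The query complexity. -/
noncomputable def Q (d : ℕ) : ℕ := sInf {q : ℕ | Solves d q}

end Vale.Agent.P347
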