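import Vale.Agent.P347.Basic

/-! TASK Gauss: facts on the standard Gaussian measure. -/

open MeasureTheory ProbabilityTheory

namespace Vale.Agent.P347

variable {d : ℕ}

/-- the standard Gaussian density -/
noncomputable def dens (d : ℕ) (x : E d) : ℝ :=
  (2 * Real.pi) ^ (-(d : ℝ) / 2) * Real.exp (-‖x‖ ^ 2 / 2)

theorem dens_pos (x : E d) : 0 < dens d x := by
  unfold dens
  have := Real.pi_pos
  positivity

theorem continuous_dens : Continuous (dens d) := by
  unfold dens
  fun_prop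

theorem integrable_dens : Integrable (dens d) volume := by
  have h := (GaussianFourier.integrable_cexp_neg_mul_sq_norm_add (V := E d) (b := 1 / 2)
    (by norm_num) 0 0).norm
  refine (h.const_mul ((2 * Real.pi) ^ (-(d : ℝ) / 2))).congr (ae_of_all _ fun x => ?_)
  simp only [dens, Complex.norm_exp]
  congr 2
  simp [← Complex.ofReal_pow]
  ring

theorem gam_eq_withDensity (d : ℕ) :
    gam d = (volume : Measure (E d)).withDensity fun x =>
      ENNReal.ofReal ((2 * Real.pi) ^ (-(d : ℝ) / 2) * Real.exp (-‖x‖ ^ 2 / 2)) := by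
  have hfin : IsFiniteMeasure ((volume : Measure (E d)).withDensity fun x =>
      ENNReal.ofReal (dens d x)) := isFiniteMeasure_withDensity_ofReal integrable_dens.2
  change gam d = (volume : Measure (E d)).withDensity fun x => ENNReal.ofReal (dens d x)
  apply Measure.ext_of_charFun
  ext t
  rw [charFun_stdGaussian, charFun_apply, integral_withDensity_eq_integral_toReal_smul
    continuous_dens.measurable.ennreal_ofReal (by simp)]
  have h := GaussianFourier.integral_cexp_neg_mul_sq_norm_add (V := E d) (b := 1 / 2)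
    (by norm_num) Complex.I t
  have e : ∀ x : E d, (ENNReal.ofReal (dens d x)).toReal •
      Complex.exp ((inner ℝ x t : ℝ) * Complex.I) =
      (((2 * Real.pi) ^ (-(d : ℝ) / 2) : ℝ) : ℂ) *
        Complex.exp (-(1 / 2) * (‖x‖ : ℂ) ^ 2 + Complex.I * (inner ℝ t x : ℝ)) := by
    intro x
    rw [ENNReal.toReal_ofReal (dens_pos x).le, dens, Complex.real_smul, Complex.exp_add,
      real_inner_comm]
    push_cast
    ring_nf
  simp_rw [e]
  rw [integral_const_mul, h, finrank_euclideanSpace_fin, ← mul_assoc]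
  have h2 : (((2 * Real.pi) ^ (-(d : ℝ) / 2) : ℝ) : ℂ) *
      ((Real.pi : ℂ) / (1 / 2)) ^ ((d : ℂ) / 2) = 1 := by
    have h3 : ((Real.pi : ℂ) / (1 / 2)) ^ ((d : ℂ) / 2) =
        (((2 * Real.pi) ^ ((d : ℝ) / 2) : ℝ) : ℂ) := by
      rw [Complex.ofReal_cpow (by positivity)]
      push_cast
      congr 1
      ring
    rw [h3, ← Complex.ofReal_mul, ← Real.rpow_add (by positivity)]
    simp [neg_div]
  rw [h2, one_mul, Complex.I_sq]
  congr 1
  ring

theorem gam_eq_dens (d : ℕ) :
    gam d = (volume : Measure (E d)).withDensity fun x => ENNReal.ofReal (dens d x) :=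
  gam_eq_withDensity d

theorem integral_gam_dens (f : E d → ℝ) : ∫ x, f x ∂(gam d) = ∫ x, dens d x * f x := by
  rw [gam_eq_dens, integral_withDensity_eq_integral_toReal_smul
    continuous_dens.measurable.ennreal_ofReal (by simp)]
  simp only [ENNReal.toReal_ofReal (dens_pos _).le, smul_eq_mul]

theorem integrable_gam_dens (f : E d → ℝ) :
    Integrable f (gam d) ↔ Integrable (fun x => dens d x * f x) volume := by
  rw [gam_eq_dens, integrable_withDensity_iff_integrable_smul'
    continuous_dens.measurable.ennreal_ofReal (by simp)]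
  simp only [ENNReal.toReal_ofReal (dens_pos _).le, smul_eq_mul]

private theorem dens_affine (x : E d) {s : ℝ} (hs : 0 < s) (f : E d → ℝ) (ξ : E d) :
    dens d ξ * f (x + √s • ξ) = (2 * Real.pi) ^ (-(d : ℝ) / 2) *
      (fun u => f (x + u) * Real.exp (-(‖x + u - x‖ ^ 2 / (2 * s)))) (√s • ξ) := by
  have : ‖x + √s • ξ - x‖ ^ 2 / (2 * s) = ‖ξ‖ ^ 2 / 2 := by
    rw [add_sub_cancel_left, norm_smul, mul_pow, Real.norm_eq_abs, sq_abs, Real.sq_sqrt hs.le]
    field_simp
  simp only [this, dens, neg_div]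
  ring

/-- Gaussian integrals as Lebesgue integrals, after an affine change of variables. -/
theorem integral_gam_affine (x : E d) {s : ℝ} (hs : 0 < s) (f : E d → ℝ) :
    ∫ ξ, f (x + √s • ξ) ∂(gam d) =
      (2 * Real.pi * s) ^ (-(d : ℝ) / 2) * ∫ u, f u * Real.exp (-(‖u - x‖ ^ 2 / (2 * s))) := by
  rw [integral_gam_dens]
  simp_rw [dens_affine x hs f]
  rw [integral_const_mul, Measure.integral_comp_smul_of_nonneg volume
    (fun u => f (x + u) * Real.exp (-(‖x + u - x‖ ^ 2 / (2 * s)))) (√s) (hR := Real.sqrt_nonneg s),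
    integral_add_left_eq_self (fun u => f u * Real.exp (-(‖u - x‖ ^ 2 / (2 * s)))) x,
    finrank_euclideanSpace_fin, smul_eq_mul, ← mul_assoc]
  congr 1
  rw [Real.mul_rpow (by positivity) hs.le, Real.sqrt_eq_rpow, ← Real.rpow_natCast,
    ← Real.rpow_mul hs.le, ← Real.rpow_neg hs.le]
  congr 2
  ring

theorem integrable_gam_affine (x : E d) {s : ℝ} (hs : 0 < s) (f : E d → ℝ) :
    Integrable (fun ξ => f (x + √s • ξ)) (gam d) ↔
      Integrable (fun u => f u * Real.exp (-(‖u - x‖ ^ 2 / (2 * s)))) volume := by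
  rw [integrable_gam_dens]
  simp_rw [dens_affine x hs f]
  rw [integrable_const_mul_iff (isUnit_iff_ne_zero.2 (by positivity)),
    integrable_comp_smul_iff volume
      (fun u => f (x + u) * Real.exp (-(‖x + u - x‖ ^ 2 / (2 * s)))) (Real.sqrt_pos.2 hs).ne']
  exact (measurePreserving_add_left volume x).integrable_comp_emb
    (measurableEmbedding_addLeft x) (g := fun u => f u * Real.exp (-(‖u - x‖ ^ 2 / (2 * s))))

theorem integrable_pow_gam (p : ℕ) : Integrable (fun x : E d => (1 + ‖x‖) ^ p) (gam d) := by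
  have h0 : MemLp (fun x : E d => ‖x‖) p (gam d) := (IsGaussian.memLp_id (gam d) p (by simp)).norm
  have h1 : MemLp (fun _ : E d => (1 : ℝ)) p (gam d) := memLp_const 1
  have h : MemLp (fun x : E d => 1 + ‖x‖) p (gam d) := h1.add h0
  refine h.integrable_norm_pow'.congr (ae_of_all _ fun x => ?_)
  dsimp only
  rw [Real.norm_of_nonneg (by positivity)]

private theorem one_add_le {X : Type*} [NormedAddCommGroup X] {y : E d} {z : X} {A B : ℝ}
    (hA : 0 ≤ A) (hB : 0 ≤ B) (h : ‖y‖ ≤ A + B * ‖z‖) (p : ℕ) :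
    (1 + ‖y‖) ^ p ≤ (1 + A + B) ^ p * (1 + ‖z‖) ^ p := by
  rw [← mul_pow]
  refine pow_le_pow_left₀ (by positivity) ?_ p
  nlinarith [norm_nonneg z, mul_nonneg hA (norm_nonneg z)]

/-- Lebesgue integrability of polynomial times Gaussian. -/
theorem integrable_pow_mul_exp_neg (p : ℕ) {c : ℝ} (hc : 0 < c) (x : E d) :
    Integrable (fun u : E d => (1 + ‖u‖) ^ p * Real.exp (-(c * ‖u - x‖ ^ 2))) volume := by
  have hs : 0 < 1 / (2 * c) := by positivity
  have h := (integrable_gam_affine x hs (fun u => (1 + ‖u‖) ^ p)).1 (by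
    refine ((integrable_pow_gam p).const_mul ((1 + ‖x‖ + √(1 / (2 * c))) ^ p)).mono'
      (by fun_prop) (ae_of_all _ fun ξ => ?_)
    rw [Real.norm_of_nonneg (by positivity)]
    refine one_add_le (norm_nonneg _) (Real.sqrt_nonneg _) ((norm_add_le _ _).trans ?_) p
    rw [norm_smul, Real.norm_of_nonneg (Real.sqrt_nonneg _)])
  refine h.congr (ae_of_all _ fun u => ?_)
  dsimp only
  congr 3
  field_simp

theorem PG.integrable_gam {f : E d → ℝ} (hf : PG f) (hm : AEStronglyMeasurable f (gam d)) :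
    Integrable f (gam d) := by
  obtain ⟨C, p, h⟩ := hf
  exact ((integrable_pow_gam p).const_mul C).mono' hm (ae_of_all _ h)

theorem PG.integrable_gam2 {f : E d × E d → ℝ} (hf : PG f)
    (hm : AEStronglyMeasurable f ((gam d).prod (gam d))) :
    Integrable f ((gam d).prod (gam d)) := by
  obtain ⟨C, p, h⟩ := hf
  refine (((integrable_pow_gam p).mul_prod (integrable_pow_gam p)).const_mul |C|).mono' hm
    (ae_of_all _ fun Z => (h Z).trans ?_)
  refine mul_le_mul (le_abs_self C) ?_ (by positivity) (abs_nonneg C)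
  rw [← mul_pow]
  refine pow_le_pow_left₀ (by positivity) ?_ p
  have h1 : ‖Z‖ ≤ ‖Z.1‖ + ‖Z.2‖ := by
    rw [Prod.norm_def]
    exact max_le (by linarith [norm_nonneg Z.2]) (by linarith [norm_nonneg Z.1])
  nlinarith [mul_nonneg (norm_nonneg Z.1) (norm_nonneg Z.2)]

theorem integral_inner_sq_gam (v : E d) : ∫ x, (inner ℝ v x) ^ 2 ∂(gam d) = ‖v‖ ^ 2 := by
  have h := variance_dual_stdGaussian (innerSL ℝ v)
  rw [variance_of_integral_eq_zero (innerSL ℝ v).continuous.aemeasurable
    (integral_strongDual_stdGaussian _), innerSL_apply_norm] at h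
  exact h

theorem integral_norm_sq_gam : ∫ x, ‖x‖ ^ 2 ∂(gam d) = d := by
  simp_rw [← (EuclideanSpace.basisFun (Fin d) ℝ).sum_sq_inner_right]
  rw [integral_finsetSum]
  · simp only [integral_inner_sq_gam, OrthonormalBasis.norm_eq_one]
    simp
  · intro i _
    exact (IsGaussian.memLp_dual (gam d) (innerSL ℝ (EuclideanSpace.basisFun (Fin d) ℝ i)) 2
      (by simp)).integrable_sq

theorem integral_norm_gam_le : ∫ x, ‖x‖ ∂(gam d) ≤ √d := by
  have hm : MemLp (fun x : E d => ‖x‖) 2 (gam d) := (IsGaussian.memLp_id (gam d) 2 (by simp)).norm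
  have h := variance_nonneg (fun x : E d => ‖x‖) (gam d)
  rw [variance_eq_sub hm] at h
  apply Real.le_sqrt_of_sq_le
  rw [← integral_norm_sq_gam]
  exact sub_nonneg.1 h

/-- sums of independent Gaussians -/
theorem gam_add (a b : ℝ) :
    ((gam d).prod (gam d)).map (fun p => a • p.1 + b • p.2) =
      (gam d).map fun ξ => √(a ^ 2 + b ^ 2) • ξ := by
  have h1 : ((gam d).prod (gam d)).map (fun p => a • p.1 + b • p.2) =
      (((gam d).map (a • ·)).prod ((gam d).map (b • ·))).map (fun p => p.1 + p.2) := by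
    rw [Measure.map_prod_map _ _ (by fun_prop) (by fun_prop),
      Measure.map_map (by fun_prop) (by fun_prop)]
    rfl
  have i1 : IsProbabilityMeasure ((gam d).map (a • ·)) :=
    Measure.isProbabilityMeasure_map (by fun_prop)
  have i2 : IsProbabilityMeasure ((gam d).map (b • ·)) :=
    Measure.isProbabilityMeasure_map (by fun_prop)
  rw [h1]
  apply Measure.ext_of_charFun
  ext t
  rw [charFun_map_add_prod_eq_mul, Pi.mul_apply, charFun_map_smul, charFun_map_smul,
    charFun_map_smul, charFun_stdGaussian, charFun_stdGaussian, charFun_stdGaussian,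
    ← Complex.exp_add]
  congr 1
  norm_cast
  simp only [norm_smul, mul_pow, Real.norm_eq_abs, sq_abs]
  rw [Real.sq_sqrt (by positivity)]
  ring

/-- rotation invariance of the product of two standard Gaussians -/
theorem gam_rot {a b : ℝ} (hab : a ^ 2 + b ^ 2 = 1) :
    ((gam d).prod (gam d)).map (fun p => (a • p.1 + b • p.2, a • p.2 - b • p.1)) =
      (gam d).prod (gam d) := by
  have hn : ‖(⟨a, b⟩ : ℂ)‖ = 1 := by
    rw [Complex.norm_def, Complex.normSq_mk, ← sq, ← sq, hab, Real.sqrt_one]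
  have h0 : (⟨a, b⟩ : ℂ) ≠ 0 := by
    intro h
    rw [h] at hn
    simp at hn
  have h := IsGaussian.map_rotation_eq_self (μ := gam d) integral_id_stdGaussian
    (Complex.arg ⟨a, b⟩)
  refine Eq.trans ?_ h
  congr 1
  funext p
  rw [ContinuousLinearMap.rotation_apply, Complex.cos_arg h0, Complex.sin_arg, hn]
  simp only [div_one, neg_smul]
  rw [neg_add_eq_sub]

theorem gam_neg : (gam d).map (fun ξ => -ξ) = gam d :=
  stdGaussian_map (LinearIsometryEquiv.neg ℝ)

theorem hasDerivAt_dens (x v : E d) :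
    HasDerivAt (fun t : ℝ => dens d (x + t • v)) (-(inner ℝ x v) * dens d x) 0 := by
  have h1 : HasDerivAt (fun t : ℝ => x + t • v) v 0 := by
    simpa using ((hasDerivAt_id (0 : ℝ)).smul_const v).const_add x
  have h2 := ((h1.norm_sq.neg.div_const 2).exp).const_mul ((2 * Real.pi) ^ (-(d : ℝ) / 2))
  refine h2.congr_deriv ?_
  simp only [dens, Pi.neg_apply, zero_smul, add_zero]
  ring

/-- Gaussian integration by parts on pairs. -/
theorem gam2_ibp {f f' : E d × E d → ℝ} (v : E d × E d)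
    (hf : ∀ Z, HasLineDerivAt ℝ f (f' Z) Z v) (hfc : Continuous f) (hg : PG f) (hg' : PG f')
    (hm : AEStronglyMeasurable f' ((gam d).prod (gam d))) :
    ∫ Z, f' Z ∂((gam d).prod (gam d)) =
      ∫ Z, (inner ℝ Z.1 v.1 + inner ℝ Z.2 v.2) * f Z ∂((gam d).prod (gam d)) := by
  have hmeas : Measurable fun Z : E d × E d =>
      ENNReal.ofReal (dens d Z.1) * ENNReal.ofReal (dens d Z.2) :=
    (continuous_dens.measurable.ennreal_ofReal.comp measurable_fst).mul
      (continuous_dens.measurable.ennreal_ofReal.comp measurable_snd)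
  have hprod : (gam d).prod (gam d) = ((volume : Measure (E d)).prod volume).withDensity
      fun Z => ENNReal.ofReal (dens d Z.1) * ENNReal.ofReal (dens d Z.2) := by
    rw [gam_eq_dens, prod_withDensity continuous_dens.measurable.ennreal_ofReal
      continuous_dens.measurable.ennreal_ofReal]
  have hI : ∀ g : E d × E d → ℝ, ∫ Z, g Z ∂((gam d).prod (gam d)) =
      ∫ Z, g Z * (dens d Z.1 * dens d Z.2) ∂((volume : Measure (E d)).prod volume) := by
    intro g
    rw [hprod, integral_withDensity_eq_integral_toReal_smul hmeas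
      (ae_of_all _ fun Z => ENNReal.mul_lt_top ENNReal.ofReal_lt_top ENNReal.ofReal_lt_top)]
    simp only [ENNReal.toReal_mul, ENNReal.toReal_ofReal (dens_pos _).le, smul_eq_mul, mul_comm]
  have hJ : ∀ g : E d × E d → ℝ, Integrable g ((gam d).prod (gam d)) →
      Integrable (fun Z => g Z * (dens d Z.1 * dens d Z.2))
        ((volume : Measure (E d)).prod volume) := by
    intro g h
    rw [hprod, integrable_withDensity_iff hmeas
      (ae_of_all _ fun Z => ENNReal.mul_lt_top ENNReal.ofReal_lt_top ENNReal.ofReal_lt_top)] at h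
    simpa only [ENNReal.toReal_mul, ENNReal.toReal_ofReal (dens_pos _).le] using h
  have hpg : PG fun Z : E d × E d => (inner ℝ Z.1 v.1 + inner ℝ Z.2 v.2) * f Z := by
    obtain ⟨C, p, h⟩ := hg
    refine ⟨(‖v.1‖ + ‖v.2‖) * C, p + 1, fun Z => ?_⟩
    have h1 : |inner ℝ Z.1 v.1 + inner ℝ Z.2 v.2| ≤ (‖v.1‖ + ‖v.2‖) * (1 + ‖Z‖) := by
      have a1 := abs_real_inner_le_norm Z.1 v.1
      have a2 := abs_real_inner_le_norm Z.2 v.2
      have a3 := mul_le_mul_of_nonneg_right (norm_fst_le Z) (norm_nonneg v.1)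
      have a4 := mul_le_mul_of_nonneg_right (norm_snd_le Z) (norm_nonneg v.2)
      have a5 := abs_add_le (inner ℝ Z.1 v.1 : ℝ) (inner ℝ Z.2 v.2)
      nlinarith [norm_nonneg v.1, norm_nonneg v.2]
    rw [abs_mul]
    refine (mul_le_mul h1 (h Z) (abs_nonneg _) (by positivity)).trans (le_of_eq ?_)
    ring
  have i1 := hJ _ (hg'.integrable_gam2 hm)
  have i2 := hJ _ (hpg.integrable_gam2 (by fun_prop))
  have i3 := hJ _ (hg.integrable_gam2 hfc.aestronglyMeasurable)
  have key := integral_bilinear_hasLineDerivAt_right_eq_neg_left_of_integrable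
    (μ := (volume : Measure (E d)).prod volume) (f := f) (f' := f')
    (g := fun Z => dens d Z.1 * dens d Z.2)
    (g' := fun Z => -((inner ℝ Z.1 v.1 + inner ℝ Z.2 v.2) * (dens d Z.1 * dens d Z.2))) (v := v)
    (B := ContinuousLinearMap.mul ℝ ℝ) i1
    (i2.neg.congr (ae_of_all _ fun Z => by simp; ring)) i3 (fun Z _ => hf Z) (fun Z _ => by
      have := (hasDerivAt_dens Z.1 v.1).mul (hasDerivAt_dens Z.2 v.2)
      refine HasDerivAt.congr_deriv this ?_
      simp only [zero_smul, add_zero]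
      ring)
  rw [hI, hI]
  simp only [ContinuousLinearMap.mul_apply'] at key
  rw [← neg_inj, ← key, ← integral_neg]
  congr 1
  funext Z
  ring

theorem cameron_martin (h : E d) (f : E d → ℝ) :
    ∫ ξ, f (ξ + h) ∂(gam d) =
      ∫ ξ, f ξ * Real.exp (inner ℝ ξ h - ‖h‖ ^ 2 / 2) ∂(gam d) := by
  rw [integral_gam_dens, integral_gam_dens,
    ← integral_add_right_eq_self (fun ξ => dens d ξ *
      (f ξ * Real.exp (inner ℝ ξ h - ‖h‖ ^ 2 / 2))) h]
  congr 1
  funext ξ
  have e : Real.exp (-‖ξ‖ ^ 2 / 2) =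
      Real.exp (-‖ξ + h‖ ^ 2 / 2) * Real.exp (inner ℝ (ξ + h) h - ‖h‖ ^ 2 / 2) := by
    rw [← Real.exp_add, norm_add_sq_real, inner_add_left, real_inner_self_eq_norm_sq]
    congr 1
    ring
  simp only [dens, e]
  ring

/-- Gaussian smoothing turns a `[0,1]`-valued function into a Lipschitz function.
Hint: `φ - 1/2` is bounded by `1/2`; differentiate in the Lebesgue form, or bound
`∫ |p - q| ≤ √(χ²)` for small shifts and subdivide. -/
theorem tv_shift {φ : E d → ℝ} (hφ : Measurable φ) (h0 : ∀ x, 0 ≤ φ x) (h1 : ∀ x, φ x ≤ 1)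
    {σ : ℝ} (hσ : 0 < σ) : LipR σ⁻¹ fun x => ∫ ξ, φ (x + σ • ξ) ∂(gam d) := by
  intro y x
  obtain ⟨h, rfl⟩ : ∃ h, y = x + σ • h :=
    ⟨σ⁻¹ • (y - x), by rw [smul_smul, mul_inv_cancel₀ hσ.ne', one_smul, add_sub_cancel]⟩
  have e0 : σ⁻¹ * ‖x + σ • h - x‖ = ‖h‖ := by
    rw [add_sub_cancel_left, norm_smul, Real.norm_of_nonneg hσ.le, ← mul_assoc,
      inv_mul_cancel₀ hσ.ne', one_mul]
  rw [e0]
  dsimp only
  have hms : ∀ z : E d, AEStronglyMeasurable (fun ξ => φ (z + σ • ξ)) (gam d) := fun z =>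
    (hφ.comp (by fun_prop)).aestronglyMeasurable
  have hint : ∀ z : E d, Integrable (fun ξ => φ (z + σ • ξ)) (gam d) := fun z =>
    (integrable_const (1 : ℝ)).mono' (hms z) (ae_of_all _ fun ξ => by
      rw [Real.norm_of_nonneg (h0 _)]; exact h1 _)
  by_cases hbig : 1 ≤ ‖h‖
  · have b : ∀ z : E d, 0 ≤ ∫ ξ, φ (z + σ • ξ) ∂(gam d) ∧ ∫ ξ, φ (z + σ • ξ) ∂(gam d) ≤ 1 :=
      fun z => ⟨integral_nonneg fun ξ => h0 _, by
        have := integral_mono (hint z) (integrable_const (1 : ℝ)) (fun ξ => h1 _)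
        simpa using this⟩
    have b1 := b x
    have b2 := b (x + σ • h)
    rw [abs_le]
    constructor <;> linarith
  rcases eq_or_ne h 0 with rfl | hne
  · simp
  have hpos : 0 < ‖h‖ := norm_pos_iff.2 hne
  set L : E d → ℝ := fun ξ => Real.exp (inner ℝ ξ h - ‖h‖ ^ 2 / 2) with hL
  have c1 : ∫ ξ, L ξ ∂(gam d) = 1 := by
    have := cameron_martin h (fun _ => 1)
    simpa using this.symm
  have c2 : ∫ ξ, L ξ * L ξ ∂(gam d) = Real.exp (‖h‖ ^ 2) := by
    rw [← cameron_martin h L]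
    have : ∀ ξ, L (ξ + h) = Real.exp (‖h‖ ^ 2) * L ξ := fun ξ => by
      simp only [hL]
      rw [← Real.exp_add, inner_add_left, real_inner_self_eq_norm_sq]
      congr 1
      ring
    simp_rw [this]
    rw [integral_const_mul, c1, mul_one]
  have i1 : Integrable L (gam d) := Integrable.of_integral_ne_zero (by rw [c1]; norm_num)
  have i2 : Integrable (fun ξ => L ξ * L ξ) (gam d) :=
    Integrable.of_integral_ne_zero (by rw [c2]; positivity)
  have c3 : ∫ ξ, φ (x + σ • h + σ • ξ) ∂(gam d) = ∫ ξ, φ (x + σ • ξ) * L ξ ∂(gam d) := by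
    rw [← cameron_martin h (fun ξ => φ (x + σ • ξ))]
    congr 1
    funext ξ
    rw [smul_add]
    congr 1
    abel
  have i3 : Integrable (fun ξ => φ (x + σ • ξ) * L ξ) (gam d) :=
    i1.bdd_mul (c := 1) (hms x) (ae_of_all _ fun ξ => by
      rw [Real.norm_of_nonneg (h0 _)]; exact h1 _)
  have c4 : ∫ ξ, φ (x + σ • ξ) * L ξ ∂(gam d) - ∫ ξ, φ (x + σ • ξ) ∂(gam d) =
      ∫ ξ, (φ (x + σ • ξ) * L ξ - φ (x + σ • ξ)) - (1 / 2 * L ξ - 1 / 2) ∂(gam d) := by
    have j1 : Integrable (fun ξ => φ (x + σ • ξ) * L ξ - φ (x + σ • ξ)) (gam d) := i3.sub (hint x)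
    have j2 : Integrable (fun ξ => 1 / 2 * L ξ - 1 / 2) (gam d) :=
      (i1.const_mul _).sub (integrable_const _)
    rw [integral_sub j1 j2, integral_sub i3 (hint x), integral_sub (i1.const_mul _) (integrable_const _),
      integral_const_mul, c1]
    simp
  have c5 : ∫ ξ, (1 / (8 * ‖h‖) * (L ξ * L ξ - 2 * L ξ) + (1 / (8 * ‖h‖) + ‖h‖ / 2)) ∂(gam d) =
      1 / (8 * ‖h‖) * (Real.exp (‖h‖ ^ 2) - 1) + ‖h‖ / 2 := by
    have j1 : Integrable (fun ξ => L ξ * L ξ - 2 * L ξ) (gam d) := i2.sub (i1.const_mul _)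
    rw [integral_add (j1.const_mul _) (integrable_const _),
      integral_const_mul, integral_sub i2 (i1.const_mul _), integral_const_mul, c1, c2]
    simp
    ring
  rw [c3, c4]
  have c6 := norm_integral_le_of_norm_le (μ := gam d)
    (f := fun ξ => (φ (x + σ • ξ) * L ξ - φ (x + σ • ξ)) - (1 / 2 * L ξ - 1 / 2))
    (((i2.sub (i1.const_mul 2)).const_mul (1 / (8 * ‖h‖))).add
      (integrable_const (1 / (8 * ‖h‖) + ‖h‖ / 2))) (ae_of_all _ fun ξ => by
      have a1 : (φ (x + σ • ξ) * L ξ - φ (x + σ • ξ)) - (1 / 2 * L ξ - 1 / 2) =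
          (φ (x + σ • ξ) - 1 / 2) * (L ξ - 1) := by ring
      have a2 : |φ (x + σ • ξ) - 1 / 2| ≤ 1 / 2 := by
        rw [abs_le]
        constructor <;> linarith [h0 (x + σ • ξ), h1 (x + σ • ξ)]
      have a3 : 1 / (8 * ‖h‖) * (L ξ * L ξ - 2 * L ξ) + (1 / (8 * ‖h‖) + ‖h‖ / 2) -
          1 / 2 * |L ξ - 1| = (|L ξ - 1| - 2 * ‖h‖) ^ 2 / (8 * ‖h‖) := by
        rw [sub_sq, sq_abs]
        field_simp
        ring
      have a4 : 0 ≤ (|L ξ - 1| - 2 * ‖h‖) ^ 2 / (8 * ‖h‖) := by positivity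
      rw [a1, Real.norm_eq_abs, abs_mul]
      have a5 := mul_le_mul_of_nonneg_right a2 (abs_nonneg (L ξ - 1))
      simp only [Pi.add_apply, Pi.sub_apply]
      linarith)
  simp only [Pi.add_apply, Pi.sub_apply] at c6
  rw [c5, Real.norm_eq_abs] at c6
  refine c6.trans ?_
  have hs : ‖h‖ ^ 2 ≤ 1 := by nlinarith
  have c7 := Real.abs_exp_sub_one_le (x := ‖h‖ ^ 2) (by rwa [abs_of_nonneg (by positivity)])
  rw [abs_of_nonneg (by positivity : 0 ≤ ‖h‖ ^ 2)] at c7
  have c8 : 1 / (8 * ‖h‖) * (Real.exp (‖h‖ ^ 2) - 1) ≤ 1 / (8 * ‖h‖) * (2 * ‖h‖ ^ 2) :=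
    mul_le_mul_of_nonneg_left ((le_abs_self _).trans c7) (by positivity)
  have c9 : 1 / (8 * ‖h‖) * (2 * ‖h‖ ^ 2) = ‖h‖ / 4 := by
    field_simp
    ring
  linarith

instance isProb_gauss (c : E d) (σ : ℝ) : IsProbabilityMeasure (gauss c σ) :=
  Measure.isProbabilityMeasure_map (by fun_prop)

theorem integral_gauss (c : E d) (σ : ℝ) {f : E d → ℝ} (hf : AEStronglyMeasurable f (gauss c σ)) :
    ∫ x, f x ∂(gauss c σ) = ∫ ξ, f (c + σ • ξ) ∂(gam d) :=
  integral_map (by fun_prop) hf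

theorem integrable_norm_gauss (c : E d) (σ : ℝ) : Integrable (fun x => ‖x‖) (gauss c σ) := by
  unfold gauss
  rw [integrable_map_measure (by fun_prop) (by fun_prop)]
  exact ((integrable_const c).add ((IsGaussian.integrable_id (μ := gam d)).smul σ)).norm

/-- adding two independent Gaussian noises -/
theorem integral_gauss_gauss (c : E d) (a b : ℝ) {f : E d → ℝ} (hf : Continuous f) (hg : PG f) :
    ∫ ξ, ∫ ξ', f (c + a • ξ + b • ξ') ∂(gam d) ∂(gam d) =
      ∫ ξ, f (c + √(a ^ 2 + b ^ 2) • ξ) ∂(gam d) := by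
  have hpg : PG fun Z : E d × E d => f (c + a • Z.1 + b • Z.2) := by
    obtain ⟨C, p, h⟩ := hg
    refine ⟨|C| * (1 + ‖c‖ + (|a| + |b|)) ^ p, p, fun Z => (h _).trans ?_⟩
    rw [mul_assoc]
    refine mul_le_mul (le_abs_self C) (one_add_le (norm_nonneg _) (by positivity) ?_ p)
      (by positivity) (abs_nonneg C)
    have a1 := norm_add₃_le (a := c) (b := a • Z.1) (c := b • Z.2)
    rw [norm_smul, norm_smul, Real.norm_eq_abs, Real.norm_eq_abs] at a1
    have a3 := mul_le_mul_of_nonneg_left (norm_fst_le Z) (abs_nonneg a)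
    have a4 := mul_le_mul_of_nonneg_left (norm_snd_le Z) (abs_nonneg b)
    linarith
  rw [← integral_prod (fun Z : E d × E d => f (c + a • Z.1 + b • Z.2))
    (hpg.integrable_gam2 (by fun_prop)),
    ← integral_map (μ := gam d) (φ := fun ξ => √(a ^ 2 + b ^ 2) • ξ) (f := fun u => f (c + u))
      (by fun_prop) (by fun_prop), ← gam_add, integral_map (by fun_prop) (by fun_prop)]
  simp only [add_assoc]

end Vale.Agent.P347
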